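import Mathlib

/-!
# Quantum circuits with one-qubit gates and generalized Toffoli gates

The qubits are labelled by `Fin n ⊕ Fin a`: `n` input qubits and `a` ancillas.
-/

namespace QACParity

/-- operators on the qubits of the finite set `Q`, as matrices in the computational basis -/
abbrev Op (Q : Type) : Type := Matrix (Q → Bool) (Q → Bool) ℂ

/-- the one-qubit gate `U` on qubit `q` (identity on the other qubits) -/
noncomputable def oneQ {Q : Type} [DecidableEq Q] [Fintype Q] (q : Q) (U : Matrix Bool Bool ℂ) :
    Op Q :=
  fun x y => if ∀ r, r ≠ q → x r = y r then U (x q) (y q) else 0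

/-- the generalized Toffoli gate with control set `T` and target `b`:
the basis vector `y` goes to `y` with `y b` flipped if `y t = 1` for all `t` in `T` -/
noncomputable def tof {Q : Type} [DecidableEq Q] [Fintype Q] (T : Finset Q) (b : Q) : Op Q :=
  fun x y => if x = (if ∀ t ∈ T, y t = true then Function.update y b (!(y b)) else y)
    then 1 else 0

/-- gates -/
inductive Gate (Q : Type) : Type
  /-- an arbitrary one-qubit unitary on qubit `q` -/
  | one (q : Q) (U : Matrix Bool Bool ℂ) (hU : U ∈ Matrix.unitaryGroup Bool ℂ) : Gate Q
  /-- a generalized Toffoli gate: nonempty set `T` of controls, target `b` outside `T` -/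
  | toffoli (T : Finset Q) (b : Q) (hT : T.Nonempty) (hb : b ∉ T) : Gate Q

/-- the unitary of a gate -/
noncomputable def Gate.op {Q : Type} [DecidableEq Q] [Fintype Q] : Gate Q → Op Q
  | .one q U _ => oneQ q U
  | .toffoli T b _ _ => tof T b

/-- `1` for a generalized Toffoli gate, `0` for a one-qubit gate -/
def Gate.multi {Q : Type} : Gate Q → ℕ
  | .one _ _ _ => 0
  | .toffoli _ _ _ _ => 1

/-- the unitary of a circuit; the first gate of the list acts first -/
noncomputable def run {Q : Type} [DecidableEq Q] [Fintype Q] : List (Gate Q) → Op Q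
  | [] => 1
  | g :: l => run l * g.op

/-- number of generalized Toffoli gates of a circuit -/
def nTof {Q : Type} (C : List (Gate Q)) : ℕ := (C.map Gate.multi).sum

/-- initial basis state: input `x` and ancillas `0` -/
def ini {n a : ℕ} (x : Fin n → Bool) : Fin n ⊕ Fin a → Bool := Sum.elim x (fun _ => false)

/-- probability that the final measurement of qubit `out` gives `c`, on input `x` -/
noncomputable def pr {n a : ℕ} (C : List (Gate (Fin n ⊕ Fin a))) (out : Fin n ⊕ Fin a)
    (x : Fin n → Bool) (c : Bool) : ℝ :=
  ∑ z : Fin n ⊕ Fin a → Bool, if z out = c then ‖run C z (ini x)‖ ^ 2 else 0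

/-- the parity of `x` -/
def par {n : ℕ} (x : Fin n → Bool) : Bool :=
  decide (Odd (Finset.univ.filter (fun i => x i = true)).card)

/-- parity correlation: average over uniform `x` of Pr[correct] - Pr[wrong] -/
noncomputable def corr {n a : ℕ} (C : List (Gate (Fin n ⊕ Fin a))) (out : Fin n ⊕ Fin a) : ℝ :=
  (∑ x : Fin n → Bool, (pr C out x (par x) - pr C out x (!(par x)))) / 2 ^ n

end QACParity
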