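import Vale.Agent.P368.Rep

/-! # P368: bound of the parity correlation by the number of gates -/

namespace QACParity
open Finset

/-- sign -/
noncomputable def sg (b : Bool) : ℂ := if b = true then -1 else 1

theorem sg_norm (b : Bool) : ‖sg b‖ = 1 := by cases b <;> simp [sg]

theorem sg_star (b : Bool) : star (sg b) = sg b := by cases b <;> simp [sg]

theorem sg_par {n : ℕ} (x : Fin n → Bool) : sg (par x) = ∏ i, sg (x i) := by
  have h : ∏ i, sg (x i) = (-1) ^ (Finset.univ.filter (fun i => x i = true)).card := by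
    unfold sg
    rw [Finset.prod_ite]
    simp
  rw [h]
  unfold par sg
  by_cases ho : Odd (Finset.univ.filter (fun i => x i = true)).card
  · rw [ho.neg_one_pow]; simp [ho]
  · rw [(Nat.not_odd_iff_even.mp ho).neg_one_pow]; simp [ho]

variable {n a : ℕ}

/-- bilinear form of the correlation -/
noncomputable def BF (out : Fin n ⊕ Fin a) (A B : Op (Fin n ⊕ Fin a)) : ℂ :=
  ∑ x : Fin n → Bool, (∏ i, sg (x i)) *
    ∑ z : Fin n ⊕ Fin a → Bool, sg (z out) * (star (A z (ini x)) * B z (ini x))

theorem corr_eq (C : List (Gate (Fin n ⊕ Fin a))) (out : Fin n ⊕ Fin a) :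
    ((∑ x : Fin n → Bool, (pr C out x (par x) - pr C out x (!(par x))) : ℝ) : ℂ) =
      BF out (run C) (run C) := by
  unfold BF
  push_cast
  apply sum_congr rfl
  intro x _
  rw [← sg_par]
  unfold pr
  rw [← Complex.ofReal_sub, ← Finset.sum_sub_distrib]
  push_cast
  rw [Finset.mul_sum]
  apply sum_congr rfl
  intro z _
  have e : star (run C z (ini x)) * run C z (ini x) = ((‖run C z (ini x)‖ ^ 2 : ℝ) : ℂ) :=
    (nsq _).symm
  rw [e]
  push_cast
  cases hz : z out <;> cases hp : par x <;> simp [sg]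

/-- one-qubit sign: `sg` on the measured qubit, `1` elsewhere -/
noncomputable def sq (out q : Fin n ⊕ Fin a) (b : Bool) : ℂ := if q = out then sg b else 1

theorem sq_norm (out q : Fin n ⊕ Fin a) (b : Bool) : ‖sq out q b‖ = 1 := by
  unfold sq; split_ifs <;> simp [sg_norm]

theorem sq_star (out q : Fin n ⊕ Fin a) (b : Bool) : star (sq out q b) = sq out q b := by
  unfold sq; split_ifs <;> simp [sg_star]

theorem BF_tens (out : Fin n ⊕ Fin a) (A B : (Fin n ⊕ Fin a) → M2) :
    BF out (tens A) (tens B) =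
      (∏ i : Fin n, (Kf (sq out (Sum.inl i)) (A (Sum.inl i)) (B (Sum.inl i)) false
        - Kf (sq out (Sum.inl i)) (A (Sum.inl i)) (B (Sum.inl i)) true)) *
      ∏ j : Fin a, Kf (sq out (Sum.inr j)) (A (Sum.inr j)) (B (Sum.inr j)) false := by
  unfold BF
  have h1 : ∀ x : Fin n → Bool, ∑ z : Fin n ⊕ Fin a → Bool,
      sg (z out) * (star (tens A z (ini x)) * tens B z (ini x)) =
      (∏ i : Fin n, Kf (sq out (Sum.inl i)) (A (Sum.inl i)) (B (Sum.inl i)) (x i)) *
      ∏ j : Fin a, Kf (sq out (Sum.inr j)) (A (Sum.inr j)) (B (Sum.inr j)) false := by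
    intro x
    have h2 : ∀ z : Fin n ⊕ Fin a → Bool,
        sg (z out) * (star (tens A z (ini x)) * tens B z (ini x)) =
        ∏ q, sq out q (z q) * (star (A q (z q) (ini x q)) * B q (z q) (ini x q)) := by
      intro z
      rw [Finset.prod_mul_distrib, Finset.prod_mul_distrib]
      have h3 : ∏ q, sq out q (z q) = sg (z out) := by
        unfold sq
        rw [Finset.prod_ite_eq' univ out (fun q => sg (z q))]
        simp
      rw [h3]
      unfold tens
      rw [star_prod]
    simp only [h2]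
    rw [sum_prod_fun (fun q b => sq out q b * (star (A q b (ini x q)) * B q b (ini x q)))]
    rw [Fintype.prod_sum_type]
    congr 1
    · apply Finset.prod_congr rfl
      intro i _
      rw [Fintype.sum_bool]
      unfold Kf ini
      simp only [Sum.elim_inl]
      ring
    · apply Finset.prod_congr rfl
      intro j _
      rw [Fintype.sum_bool]
      unfold Kf ini
      simp only [Sum.elim_inr]
      ring
  simp only [h1]
  have h4 : ∀ x : Fin n → Bool, (∏ i, sg (x i)) *
      ((∏ i : Fin n, Kf (sq out (Sum.inl i)) (A (Sum.inl i)) (B (Sum.inl i)) (x i)) *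
      ∏ j : Fin a, Kf (sq out (Sum.inr j)) (A (Sum.inr j)) (B (Sum.inr j)) false) =
      (∏ i : Fin n, (sg (x i) *
        Kf (sq out (Sum.inl i)) (A (Sum.inl i)) (B (Sum.inl i)) (x i))) *
      ∏ j : Fin a, Kf (sq out (Sum.inr j)) (A (Sum.inr j)) (B (Sum.inr j)) false := by
    intro x
    rw [Finset.prod_mul_distrib, mul_assoc]
  simp only [h4]
  rw [← Finset.sum_mul]
  congr 1
  rw [sum_prod_fun (fun i b => sg b * Kf (sq out (Sum.inl i)) (A (Sum.inl i)) (B (Sum.inl i)) b)]
  apply Finset.prod_congr rfl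
  intro i _
  rw [Fintype.sum_bool]
  unfold sg
  simp only [if_true, Bool.false_eq_true, if_false]
  ring

theorem BF_tens_le (out : Fin n ⊕ Fin a) (V A B : (Fin n ⊕ Fin a) → M2)
    (hV : ∀ q, V q ∈ Matrix.unitaryGroup Bool ℂ)
    (hA : ∀ q, A q = V q ∨ R1 (A q)) (hB : ∀ q, B q = V q ∨ R1 (B q)) :
    ‖BF out (tens A) (tens B)‖ ≤ 2 := by
  rw [BF_tens, norm_mul, norm_prod, norm_prod]
  have cA : ∀ q, Con (A q) := fun q => by
    rcases hA q with h | h
    · rw [h]; exact unitary_con (hV q)
    · exact h.con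
  have cB : ∀ q, Con (B q) := fun q => by
    rcases hB q with h | h
    · rw [h]; exact unitary_con (hV q)
    · exact h.con
  have lA : ∀ q, Col (A q) := fun q => by
    rcases hA q with h | h
    · rw [h]; exact unitary_Col (hV q)
    · exact h.col
  have lB : ∀ q, Col (B q) := fun q => by
    rcases hB q with h | h
    · rw [h]; exact unitary_Col (hV q)
    · exact h.col
  have h1 : ∏ j : Fin a, ‖Kf (sq out (Sum.inr j)) (A (Sum.inr j)) (B (Sum.inr j)) false‖ ≤ 1 :=
    Finset.prod_le_one (fun _ _ => norm_nonneg _)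
      (fun j _ => Kf_norm (sq_norm out _) (lA _) (lB _) false)
  have h2 : ∏ i : Fin n, ‖Kf (sq out (Sum.inl i)) (A (Sum.inl i)) (B (Sum.inl i)) false
        - Kf (sq out (Sum.inl i)) (A (Sum.inl i)) (B (Sum.inl i)) true‖ ≤
      ∏ i : Fin n, (if (Sum.inl i : Fin n ⊕ Fin a) = out then (2 : ℝ) else 1) := by
    apply Finset.prod_le_prod (fun _ _ => norm_nonneg _)
    intro i _
    by_cases hi : (Sum.inl i : Fin n ⊕ Fin a) = out
    · rw [if_pos hi]
      have g1 := Kf_norm (sq_norm out (Sum.inl i)) (lA (Sum.inl i)) (lB (Sum.inl i)) false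
      have g2 := Kf_norm (sq_norm out (Sum.inl i)) (lA (Sum.inl i)) (lB (Sum.inl i)) true
      refine (norm_sub_le _ _).trans ?_
      linarith
    · rw [if_neg hi]
      rcases hA (Sum.inl i) with h | h
      · rcases hB (Sum.inl i) with h' | h'
        · have e : sq out (Sum.inl i : Fin n ⊕ Fin a) = fun _ => 1 := by
            funext b
            unfold sq
            rw [if_neg hi]
          rw [e, h, h', Kf_one (hV _), Kf_one (hV _)]
          simp
        · exact Kf_left (sq_norm out _) (sq_star out _) (cA _) h'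
      · exact Kf_right (sq_norm out _) h (cB _)
  have h3 : ∏ i : Fin n, (if (Sum.inl i : Fin n ⊕ Fin a) = out then (2 : ℝ) else 1) ≤ 2 := by
    rcases out with o | o
    · simp only [Sum.inl.injEq]
      rw [Finset.prod_ite_eq' univ o (fun _ => (2 : ℝ))]
      simp
    · simp
  have h0 : 0 ≤ ∏ j : Fin a, ‖Kf (sq out (Sum.inr j)) (A (Sum.inr j)) (B (Sum.inr j)) false‖ :=
    Finset.prod_nonneg (fun _ _ => norm_nonneg _)
  calc _ ≤ 2 * ∏ j : Fin a, ‖Kf (sq out (Sum.inr j)) (A (Sum.inr j)) (B (Sum.inr j)) false‖ :=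
        mul_le_mul_of_nonneg_right (h2.trans h3) h0
    _ ≤ 2 := by linarith

theorem BF_sum {ι : Type} [Fintype ι] (out : Fin n ⊕ Fin a) (c : ι → ℂ)
    (A : ι → Op (Fin n ⊕ Fin a)) :
    BF out (∑ i, c i • A i) (∑ i, c i • A i) =
      ∑ i, ∑ j, (star (c i) * c j) * BF out (A i) (A j) := by
  unfold BF
  have h : ∀ (x : Fin n → Bool) (z : Fin n ⊕ Fin a → Bool),
      sg (z out) * (star ((∑ i, c i • A i) z (ini x)) * (∑ i, c i • A i) z (ini x)) =
      ∑ i, ∑ j, (star (c i) * c j) * (sg (z out) * (star (A i z (ini x)) * A j z (ini x))) := by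
    intro x z
    have e : (∑ i, c i • A i) z (ini x) = ∑ i, c i * A i z (ini x) := by
      rw [Matrix.sum_apply]
      rfl
    rw [e, star_sum, Finset.sum_mul_sum, Finset.mul_sum]
    apply sum_congr rfl
    intro i _
    rw [Finset.mul_sum]
    apply sum_congr rfl
    intro j _
    rw [star_mul']
    ring
  simp only [h]
  have h2 : ∀ x : Fin n → Bool, (∏ i, sg (x i)) * ∑ z : Fin n ⊕ Fin a → Bool,
      ∑ i, ∑ j, (star (c i) * c j) * (sg (z out) * (star (A i z (ini x)) * A j z (ini x))) =
      ∑ i, ∑ j, (star (c i) * c j) * ((∏ i, sg (x i)) * ∑ z : Fin n ⊕ Fin a → Bool,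
        sg (z out) * (star (A i z (ini x)) * A j z (ini x))) := by
    intro x
    rw [Finset.sum_comm, Finset.mul_sum]
    apply sum_congr rfl
    intro i _
    rw [Finset.sum_comm, Finset.mul_sum]
    apply sum_congr rfl
    intro j _
    rw [← Finset.mul_sum]
    ring
  simp only [h2]
  rw [Finset.sum_comm]
  apply sum_congr rfl
  intro i _
  rw [Finset.sum_comm]
  apply sum_congr rfl
  intro j _
  rw [← Finset.mul_sum]

theorem main_bound (C : List (Gate (Fin n ⊕ Fin a))) (out : Fin n ⊕ Fin a) :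
    |corr C out| ≤ 2 * 9 ^ nTof C / 2 ^ n := by
  obtain ⟨V, hV, hrep⟩ := rep_run C 1 (fun _ => 1) 1 (fun _ => one_mem _) Rep.one
  have e1 : run C * (1 : Op (Fin n ⊕ Fin a)) = run C := mul_one _
  rw [e1, one_mul] at hrep
  obtain ⟨ι, hι, c, A, hC, hc, hA⟩ := hrep
  have h1 := corr_eq C out
  have h2 : ‖BF out (run C) (run C)‖ ≤ 2 * 9 ^ nTof C := by
    rw [hC, BF_sum]
    have h3 : ∀ i j, ‖(star (c i) * c j) * BF out (tens (A i)) (tens (A j))‖ ≤
        ‖c i‖ * ‖c j‖ * 2 := by
      intro i j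
      rw [norm_mul, norm_mul, norm_star]
      exact mul_le_mul_of_nonneg_left (BF_tens_le out V (A i) (A j) hV (hA i) (hA j))
        (by positivity)
    calc ‖∑ i, ∑ j, (star (c i) * c j) * BF out (tens (A i)) (tens (A j))‖
        ≤ ∑ i, ‖∑ j, (star (c i) * c j) * BF out (tens (A i)) (tens (A j))‖ := norm_sum_le _ _
      _ ≤ ∑ i, ∑ j, ‖c i‖ * ‖c j‖ * 2 := by
          apply sum_le_sum
          intro i _
          refine (norm_sum_le _ _).trans ?_
          exact sum_le_sum fun j _ => h3 i j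
      _ = 2 * (∑ i, ‖c i‖) ^ 2 := by
          rw [pow_two, Finset.sum_mul_sum, Finset.mul_sum]
          apply sum_congr rfl
          intro i _
          rw [Finset.mul_sum]
          apply sum_congr rfl
          intro j _
          ring
      _ ≤ 2 * (3 ^ nTof C) ^ 2 := by
          have h0 : 0 ≤ ∑ i, ‖c i‖ := Finset.sum_nonneg fun _ _ => norm_nonneg _
          have := pow_le_pow_left₀ h0 hc 2
          linarith
      _ = 2 * 9 ^ nTof C := by
          rw [← pow_mul, mul_comm (nTof C) 2, pow_mul]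
          norm_num
  unfold corr
  rw [abs_div, abs_of_pos (show (0 : ℝ) < 2 ^ n by positivity)]
  apply div_le_div_of_nonneg_right _ (by positivity)
  rw [← h1, Complex.norm_real, Real.norm_eq_abs] at h2
  exact h2

end QACParity
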