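import Mathlib

/-! # P368: 2 x 2 matrices, unit vectors and rank one contractions -/

namespace QACParity
open Finset

abbrev M2 : Type := Matrix Bool Bool ℂ

/-- squared norm of a vector -/
noncomputable def n2 (v : Bool → ℂ) : ℝ := ‖v false‖ ^ 2 + ‖v true‖ ^ 2

/-- rank one contraction -/
def R1 (M : M2) : Prop := ∃ v w : Bool → ℂ, n2 v ≤ 1 ∧ n2 w ≤ 1 ∧ M = fun i j => v i * w j

/-- row contraction -/
def Con (M : M2) : Prop := ∀ w : Bool → ℂ, n2 (fun j => w false * M false j + w true * M true j) ≤ n2 w

theorem n2_nonneg (v : Bool → ℂ) : 0 ≤ n2 v := by unfold n2; positivity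

theorem cs (v w : Bool → ℂ) : ‖v false * w false + v true * w true‖ ^ 2 ≤ n2 v * n2 w := by
  have h1 : ‖v false * w false + v true * w true‖ ≤ ‖v false‖ * ‖w false‖ + ‖v true‖ * ‖w true‖ := by
    refine (norm_add_le _ _).trans ?_
    rw [norm_mul, norm_mul]
  have h2 : ‖v false * w false + v true * w true‖ ^ 2 ≤
      (‖v false‖ * ‖w false‖ + ‖v true‖ * ‖w true‖) ^ 2 :=
    pow_le_pow_left₀ (norm_nonneg _) h1 2
  unfold n2
  nlinarith [sq_nonneg (‖v false‖ * ‖w true‖ - ‖v true‖ * ‖w false‖)]

theorem cs1 (v w : Bool → ℂ) (hv : n2 v ≤ 1) (hw : n2 w ≤ 1) :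
    ‖v false * w false + v true * w true‖ ≤ 1 := by
  have h := cs v w
  have h0 := n2_nonneg v
  have h1 := n2_nonneg w
  have h3 : n2 v * n2 w ≤ 1 := by nlinarith
  have h4 : ‖v false * w false + v true * w true‖ ^ 2 ≤ 1 ^ 2 := by linarith
  exact (abs_le_of_sq_le_sq' (by linarith) (by norm_num)).2

theorem R1.con {M : M2} (h : R1 M) : Con M := by
  obtain ⟨v, w, hv, hw, rfl⟩ := h
  intro u
  have e : n2 (fun j => u false * (v false * w j) + u true * (v true * w j)) =
      ‖u false * v false + u true * v true‖ ^ 2 * n2 w := by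
    unfold n2
    have e1 : ∀ j, u false * (v false * w j) + u true * (v true * w j) =
        (u false * v false + u true * v true) * w j := fun j => by ring
    simp only [e1, norm_mul]
    ring
  rw [e]
  have h1 := cs u v
  have h0 := n2_nonneg u
  have h2 := n2_nonneg w
  have h3 := n2_nonneg v
  have h4 : n2 u * n2 v ≤ n2 u := by nlinarith
  calc ‖u false * v false + u true * v true‖ ^ 2 * n2 w ≤ (n2 u) * n2 w :=
        mul_le_mul_of_nonneg_right (h1.trans h4) h2
    _ ≤ n2 u := by nlinarith

theorem nsq (z : ℂ) : ((‖z‖ ^ 2 : ℝ) : ℂ) = star z * z := by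
  rw [Complex.star_def, ← Complex.normSq_eq_conj_mul_self, Complex.normSq_eq_norm_sq]

theorem unitary_col {U : M2} (hU : U ∈ Matrix.unitaryGroup Bool ℂ) (v : Bool → ℂ) :
    n2 (fun i => U i false * v false + U i true * v true) = n2 v := by
  have h := Matrix.mem_unitaryGroup_iff'.mp hU
  have h00 := congrFun (congrFun h false) false
  have h01 := congrFun (congrFun h false) true
  have h10 := congrFun (congrFun h true) false
  have h11 := congrFun (congrFun h true) true
  simp only [Matrix.mul_apply, Matrix.star_apply, Fintype.sum_bool, Matrix.one_apply] at h00 h01 h10 h11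
  have key : ((n2 (fun i => U i false * v false + U i true * v true) : ℝ) : ℂ) = ((n2 v : ℝ) : ℂ) := by
    unfold n2
    push_cast [nsq]
    simp only [← Complex.ofReal_pow, nsq, star_add, star_mul', Complex.star_def]
    simp at h00 h01 h10 h11
    linear_combination ((starRingEnd ℂ) (v false) * v false) * h00
      + ((starRingEnd ℂ) (v false) * v true) * h01 +
      ((starRingEnd ℂ) (v true) * v false) * h10 + ((starRingEnd ℂ) (v true) * v true) * h11
  exact_mod_cast key

theorem unitary_row {U : M2} (hU : U ∈ Matrix.unitaryGroup Bool ℂ) (w : Bool → ℂ) :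
    n2 (fun j => w false * U false j + w true * U true j) = n2 w := by
  have h := Matrix.mem_unitaryGroup_iff.mp hU
  have h00 := congrFun (congrFun h false) false
  have h01 := congrFun (congrFun h false) true
  have h10 := congrFun (congrFun h true) false
  have h11 := congrFun (congrFun h true) true
  simp only [Matrix.mul_apply, Matrix.star_apply, Fintype.sum_bool, Matrix.one_apply] at h00 h01 h10 h11
  have key : ((n2 (fun j => w false * U false j + w true * U true j) : ℝ) : ℂ) = ((n2 w : ℝ) : ℂ) := by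
    unfold n2
    push_cast [nsq]
    simp only [← Complex.ofReal_pow, nsq, star_add, star_mul', Complex.star_def]
    simp at h00 h01 h10 h11
    linear_combination ((starRingEnd ℂ) (w false) * w false) * h00
      + ((starRingEnd ℂ) (w true) * w false) * h01 +
      ((starRingEnd ℂ) (w false) * w true) * h10 + ((starRingEnd ℂ) (w true) * w true) * h11
  exact_mod_cast key

theorem unitary_con {U : M2} (hU : U ∈ Matrix.unitaryGroup Bool ℂ) : Con U :=
  fun w => (unitary_row hU w).le

theorem R1.unitary_mul {U M : M2} (hU : U ∈ Matrix.unitaryGroup Bool ℂ) (h : R1 M) :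
    R1 (U * M) := by
  obtain ⟨v, w, hv, hw, rfl⟩ := h
  refine ⟨fun i => U i false * v false + U i true * v true, w, ?_, hw, ?_⟩
  · rw [unitary_col hU]; exact hv
  · ext i j
    change ∑ k, U i k * (v k * w j) = _
    rw [Fintype.sum_bool]
    ring

theorem R1.mul_con {P M : M2} (hP : R1 P) (hM : Con M) : R1 (P * M) := by
  obtain ⟨v, w, hv, hw, rfl⟩ := hP
  refine ⟨v, fun j => w false * M false j + w true * M true j, hv, (hM w).trans hw, ?_⟩
  ext i j
  change ∑ k, (v i * w k) * M k j = _
  rw [Fintype.sum_bool]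
  ring

/-- column norm bound -/
def Col (M : M2) : Prop := ∀ c, n2 (fun z => M z c) ≤ 1

theorem R1.col {M : M2} (h : R1 M) : Col M := by
  obtain ⟨v, w, hv, hw, rfl⟩ := h
  intro c
  have hc : ‖w c‖ ^ 2 ≤ n2 w := by
    unfold n2
    cases c
    · nlinarith [sq_nonneg ‖w true‖]
    · nlinarith [sq_nonneg ‖w false‖]
  have e : n2 (fun z => v z * w c) = n2 v * ‖w c‖ ^ 2 := by
    unfold n2
    simp only [norm_mul]
    ring
  show n2 (fun z => v z * w c) ≤ 1
  rw [e]
  have h0 := n2_nonneg v
  have h1 : ‖w c‖ ^ 2 ≤ 1 := hc.trans hw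
  nlinarith [sq_nonneg ‖w c‖]

theorem unitary_col1 {U : M2} (hU : U ∈ Matrix.unitaryGroup Bool ℂ) (c : Bool) :
    n2 (fun z => U z c) = 1 := by
  have h := unitary_col hU (fun j => if j = c then 1 else 0)
  cases c
  · simpa [n2] using h
  · simpa [n2] using h

theorem unitary_Col {U : M2} (hU : U ∈ Matrix.unitaryGroup Bool ℂ) : Col U :=
  fun c => (unitary_col1 hU c).le

/-- the one-qubit factor -/
noncomputable def Kf (s : Bool → ℂ) (A B : M2) (c : Bool) : ℂ :=
  s false * (star (A false c) * B false c) + s true * (star (A true c) * B true c)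

theorem Kf_norm {s : Bool → ℂ} (hs : ∀ z, ‖s z‖ = 1) {A B : M2} (hA : Col A) (hB : Col B)
    (c : Bool) : ‖Kf s A B c‖ ≤ 1 := by
  have h := cs1 (fun z => s z * star (A z c)) (fun z => B z c) ?_ (hB c)
  · unfold Kf
    convert h using 2
    ring
  · have := hA c
    unfold n2 at this ⊢
    simpa [norm_mul, hs] using this

theorem Kf_one {A : M2} (hA : A ∈ Matrix.unitaryGroup Bool ℂ) (c : Bool) :
    Kf (fun _ => 1) A A c = 1 := by
  have h := unitary_col1 hA c
  have h2 : ((n2 (fun z => A z c) : ℝ) : ℂ) = 1 := by rw [h]; simp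
  unfold n2 at h2
  push_cast at h2
  simp only [← Complex.ofReal_pow, nsq] at h2
  unfold Kf
  linear_combination h2

theorem Kf_right {s : Bool → ℂ} (hs : ∀ z, ‖s z‖ = 1) {A B : M2} (hA : R1 A) (hB : Con B) :
    ‖Kf s A B false - Kf s A B true‖ ≤ 1 := by
  obtain ⟨v, w, hv, hw, rfl⟩ := hA
  have hg := hB (fun z => s z * star (v z))
  have hn : n2 (fun z => s z * star (v z)) = n2 v := by
    unfold n2
    simp [norm_mul, hs]
  rw [hn] at hg
  have h := cs1 (fun c => if c then - star (w c) else star (w c))
    (fun j => s false * star (v false) * B false j + s true * star (v true) * B true j) ?_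
    (hg.trans hv)
  · unfold Kf
    convert h using 2
    simp only [star_mul']
    simp
    ring
  · have := hw
    unfold n2 at this ⊢
    simpa using this

theorem Kf_star (s : Bool → ℂ) (hs : ∀ z, star (s z) = s z) (A B : M2) (c : Bool) :
    Kf s A B c = star (Kf s B A c) := by
  unfold Kf
  simp only [star_add, star_mul', star_star, hs]
  ring

theorem Kf_left {s : Bool → ℂ} (hs : ∀ z, ‖s z‖ = 1) (hr : ∀ z, star (s z) = s z) {A B : M2}
    (hA : Con A) (hB : R1 B) :
    ‖Kf s A B false - Kf s A B true‖ ≤ 1 := by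
  rw [Kf_star s hr A B, Kf_star s hr A B, ← star_sub, norm_star]
  exact Kf_right hs hB hA

end QACParity
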