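import Vale.Agent.P368.Defs
import Vale.Agent.P368.One

/-! # P368: product operators and the expansion of a circuit -/

namespace QACParity
open Finset

variable {Q : Type} [DecidableEq Q] [Fintype Q]

/-- product operator -/
noncomputable def tens (A : Q → M2) : Op Q := fun x y => ∏ q, A q (x q) (y q)

theorem sum_prod_fun {Q : Type} [DecidableEq Q] [Fintype Q] (f : Q → Bool → ℂ) :
    ∑ x : Q → Bool, ∏ q, f q (x q) = ∏ q, ∑ b, f q b := by
  rw [Finset.prod_univ_sum, Fintype.piFinset_univ]

theorem tens_mul (A B : Q → M2) : tens A * tens B = tens (fun q => A q * B q) := by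
  ext x y
  change ∑ z, tens A x z * tens B z y = tens (fun q => A q * B q) x y
  unfold tens
  simp only [← Finset.prod_mul_distrib]
  rw [sum_prod_fun (fun q b => A q (x q) b * B q b (y q))]
  rfl

theorem tens_one : tens (fun _ : Q => (1 : M2)) = 1 := by
  ext x y
  unfold tens
  by_cases h : x = y
  · subst h; simp
  · rw [Matrix.one_apply_ne h]
    obtain ⟨q, hq⟩ := Function.ne_iff.mp h
    exact Finset.prod_eq_zero (mem_univ q) (Matrix.one_apply_ne hq)

theorem oneQ_eq (q : Q) (U : M2) : oneQ q U = tens (fun r => if r = q then U else 1) := by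
  ext x y
  unfold oneQ tens
  split_ifs with h
  · rw [Finset.prod_eq_single q]
    · simp
    · intro r _ hr
      simp only [if_neg hr, h r hr]
      simp
    · intro h; exact absurd (mem_univ q) h
  · push Not at h
    obtain ⟨r, hr, hxy⟩ := h
    symm
    apply Finset.prod_eq_zero (mem_univ r)
    simp only [if_neg hr]
    exact Matrix.one_apply_ne hxy

/-- projection on `1` -/
noncomputable def P1 : M2 := fun i j => (if i = true then 1 else 0) * (if j = true then 1 else 0)

/-- projection on the minus vector -/
noncomputable def Pm : M2 := fun i j =>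
  ((if i = true then -1 else 1) * (Real.sqrt 2 / 2 : ℝ)) * ((if j = true then -1 else 1) * (Real.sqrt 2 / 2 : ℝ))

theorem sq22 : ((Real.sqrt 2 / 2 : ℝ) : ℂ) * ((Real.sqrt 2 / 2 : ℝ) : ℂ) = 1 / 2 := by
  have h : (Real.sqrt 2 / 2) * (Real.sqrt 2 / 2) = (1 : ℝ) / 2 := by
    have := Real.mul_self_sqrt (show (0:ℝ) ≤ 2 by norm_num)
    nlinarith
  rw [← Complex.ofReal_mul, h]
  push_cast
  rfl

theorem P1_R1 : R1 P1 := by
  refine ⟨fun i => if i = true then 1 else 0, fun i => if i = true then 1 else 0, ?_, ?_, rfl⟩ <;>
    simp [n2]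

theorem Pm_R1 : R1 Pm := by
  have h : n2 (fun i => (if i = true then -1 else 1) * ((Real.sqrt 2 / 2 : ℝ) : ℂ)) ≤ 1 := by
    unfold n2
    simp only [norm_mul, Complex.norm_real]
    have h2 : (‖Real.sqrt 2 / 2‖ : ℝ) ^ 2 = 1 / 2 := by
      rw [Real.norm_eq_abs, sq_abs, div_pow, Real.sq_sqrt (by norm_num)]
      norm_num
    simp only [mul_pow, h2]
    simp
    norm_num
  exact ⟨_, _, h, h, rfl⟩

theorem Pm_same (b : Bool) : Pm b b = 1 / 2 := by
  unfold Pm
  cases b
  · simp only [Bool.false_eq_true, if_false, one_mul]
    exact sq22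
  · simp only [if_true]
    linear_combination sq22

theorem Pm_diff (b : Bool) : Pm (!b) b = - 1 / 2 := by
  unfold Pm
  cases b
  · simp only [Bool.not_false, if_true, Bool.false_eq_true, if_false, one_mul]
    linear_combination - sq22
  · simp only [Bool.not_true, if_true, Bool.false_eq_true, if_false, one_mul]
    linear_combination - sq22

/-- projection part of the generalized Toffoli gate -/
noncomputable def PT (T : Finset Q) (b : Q) (r : Q) : M2 :=
  if r = b then Pm else if r ∈ T then P1 else 1

theorem tof_eq (T : Finset Q) (b : Q) (hb : b ∉ T) :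
    tof T b = 1 - (2 : ℂ) • tens (PT T b) := by
  ext x y
  rw [Matrix.sub_apply, Matrix.smul_apply, smul_eq_mul]
  unfold tof
  by_cases hT : ∀ t ∈ T, y t = true
  · rw [if_pos hT]
    by_cases hoff : ∀ r, r ≠ b → x r = y r
    · -- x and y agree off b
      have hprod : tens (PT T b) x y = Pm (x b) (y b) := by
        unfold tens
        rw [Finset.prod_eq_single b]
        · unfold PT; rw [if_pos rfl]
        · intro r _ hr
          unfold PT
          rw [if_neg hr, hoff r hr]
          split_ifs with h
          · simp [P1, hT r h]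
          · simp
        · intro h; exact absurd (mem_univ b) h
      rw [hprod]
      by_cases hxb : x b = y b
      · have hxy : x = y := by
          funext r
          by_cases hr : r = b
          · rw [hr]; exact hxb
          · exact hoff r hr
        have hne : x ≠ Function.update y b (!(y b)) := by
          intro h
          have := congrFun h b
          rw [Function.update_self, hxb] at this
          cases hy : y b <;> simp [hy] at this
        rw [if_neg hne, hxb, Pm_same, hxy, Matrix.one_apply_eq]
        norm_num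
      · have hxb' : x b = !(y b) := by
          cases hx : x b <;> cases hy : y b <;> simp [hx, hy] at hxb ⊢
        have hxy : x = Function.update y b (!(y b)) := by
          funext r
          by_cases hr : r = b
          · rw [hr, Function.update_self]; exact hxb'
          · rw [Function.update_of_ne hr]; exact hoff r hr
        have hne : x ≠ y := fun h => hxb (congrFun h b)
        rw [if_pos hxy, Matrix.one_apply_ne hne, hxb', Pm_diff]
        norm_num
    · push Not at hoff
      obtain ⟨r, hr, hxy⟩ := hoff
      have h1 : x ≠ Function.update y b (!(y b)) := by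
        intro h
        apply hxy
        rw [h, Function.update_of_ne hr]
      have h2 : x ≠ y := fun h => hxy (congrFun h r)
      have h3 : tens (PT T b) x y = 0 := by
        unfold tens
        apply Finset.prod_eq_zero (mem_univ r)
        unfold PT
        rw [if_neg hr]
        split_ifs with h
        · unfold P1
          by_cases hy : y r = true
          · have hx : ¬ x r = true := fun h' => hxy (h'.trans hy.symm)
            simp [hx]
          · simp [hy]
        · exact Matrix.one_apply_ne hxy
      rw [if_neg h1, Matrix.one_apply_ne h2, h3]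
      norm_num
  · rw [if_neg hT]
    push Not at hT
    obtain ⟨t, ht, hyt⟩ := hT
    have h3 : tens (PT T b) x y = 0 := by
      unfold tens
      apply Finset.prod_eq_zero (mem_univ t)
      unfold PT
      have htb : t ≠ b := fun h => hb (h ▸ ht)
      rw [if_neg htb, if_pos ht]
      unfold P1
      simp [hyt]
    rw [h3, mul_zero, sub_zero, Matrix.one_apply]

/-- expansion of an operator into product operators -/
def Rep (c : ℝ) (V : Q → M2) (C : Op Q) : Prop :=
  ∃ (ι : Type) (_ : Fintype ι) (a : ι → ℂ) (A : ι → Q → M2), C = ∑ i, a i • tens (A i) ∧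
    ∑ i, ‖a i‖ ≤ c ∧ ∀ i q, A i q = V q ∨ R1 (A i q)

theorem Rep.one : Rep 1 (fun _ : Q => (1 : M2)) (1 : Op Q) := by
  refine ⟨Unit, inferInstance, fun _ => 1, fun _ _ => 1, ?_, ?_, ?_⟩
  · simp [tens_one]
  · simp
  · intro i q; left; rfl

theorem Rep.mulOne {c : ℝ} {V : Q → M2} {C : Op Q} (h : Rep c V C) (q : Q) (U : M2)
    (hU : U ∈ Matrix.unitaryGroup Bool ℂ) :
    Rep c (fun r => (if r = q then U else 1) * V r) (oneQ q U * C) := by
  obtain ⟨ι, hι, a, A, hC, ha, hA⟩ := h
  refine ⟨ι, hι, a, fun i r => (if r = q then U else 1) * A i r, ?_, ha, ?_⟩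
  · rw [hC, oneQ_eq, Matrix.mul_sum]
    apply sum_congr rfl
    intro i _
    rw [Matrix.mul_smul, tens_mul]
  · intro i r
    rcases hA i r with h | h
    · left
      show (if r = q then U else 1) * A i r = (if r = q then U else 1) * V r
      rw [h]
    · right
      show R1 ((if r = q then U else 1) * A i r)
      by_cases hr : r = q
      · rw [if_pos hr]; exact h.unitary_mul hU
      · rw [if_neg hr, one_mul]; exact h

theorem Rep.mulTof {c : ℝ} {V : Q → M2} {C : Op Q} (hV : ∀ q, V q ∈ Matrix.unitaryGroup Bool ℂ)
    (h : Rep c V C) (T : Finset Q) (b : Q) (hb : b ∉ T) :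
    Rep (c * 3) V (tof T b * C) := by
  obtain ⟨ι, hι, a, A, hC, ha, hA⟩ := h
  refine ⟨ι ⊕ ι, inferInstance, Sum.elim a (fun i => -2 * a i),
    Sum.elim A (fun i r => PT T b r * A i r), ?_, ?_, ?_⟩
  · rw [tof_eq T b hb, sub_mul, one_mul, Fintype.sum_sum_type]
    simp only [Sum.elim_inl, Sum.elim_inr]
    rw [← hC, sub_eq_add_neg]
    congr 1
    rw [hC, Matrix.mul_sum, ← Finset.sum_neg_distrib]
    apply sum_congr rfl
    intro i _
    rw [Matrix.smul_mul, Matrix.mul_smul, tens_mul, smul_smul, ← neg_smul]
    congr 1
    ring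
  · rw [Fintype.sum_sum_type]
    simp only [Sum.elim_inl, Sum.elim_inr, norm_mul, norm_neg]
    rw [← Finset.mul_sum]
    have : ‖(2 : ℂ)‖ = 2 := by simp
    rw [this]
    linarith
  · rintro (i | i) r
    · exact hA i r
    · simp only [Sum.elim_inr]
      have hcon : Con (A i r) := by
        rcases hA i r with h | h
        · rw [h]; exact unitary_con (hV r)
        · exact h.con
      unfold PT
      split_ifs with h1 h2
      · right; exact Pm_R1.mul_con hcon
      · right; exact P1_R1.mul_con hcon
      · rw [one_mul]; exact hA i r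

theorem rep_run (l : List (Gate Q)) : ∀ (c : ℝ) (V : Q → M2) (C : Op Q),
    (∀ q, V q ∈ Matrix.unitaryGroup Bool ℂ) → Rep c V C →
    ∃ V' : Q → M2, (∀ q, V' q ∈ Matrix.unitaryGroup Bool ℂ) ∧
      Rep (c * 3 ^ nTof l) V' (run l * C) := by
  induction l with
  | nil =>
    intro c V C hV h
    refine ⟨V, hV, ?_⟩
    have e1 : run ([] : List (Gate Q)) * C = C := one_mul C
    have e2 : c * 3 ^ nTof ([] : List (Gate Q)) = c := by simp [nTof]
    rw [e1, e2]
    exact h
  | cons g l ih =>
    intro c V C hV h
    have e1 : run (g :: l) * C = run l * (g.op * C) := Matrix.mul_assoc _ _ _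
    rw [e1]
    cases g with
    | one q U hU =>
      have e2 : nTof (Gate.one q U hU :: l) = nTof l := by simp [nTof, Gate.multi]
      rw [e2]
      refine ih c _ _ ?_ (h.mulOne q U hU)
      intro r
      by_cases hr : r = q
      · simp only [if_pos hr]; exact mul_mem hU (hV r)
      · simp only [if_neg hr, one_mul]; exact hV r
    | toffoli T b hT hb =>
      have e2 : nTof (Gate.toffoli T b hT hb :: l) = nTof l + 1 := by
        simp [nTof, Gate.multi, add_comm]
      rw [e2]
      obtain ⟨V', h1, h2⟩ := ih (c * 3) V _ hV (h.mulTof hV T b hb)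
      refine ⟨V', h1, ?_⟩
      have e3 : c * 3 ^ (nTof l + 1) = c * 3 * 3 ^ nTof l := by ring
      rw [e3]
      exact h2

end QACParity
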