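import Vale.Agent.P368.Main

/-! # P368: circuits are unitary, worst-case advantage -/

namespace QACParity
open Finset

section
variable {Q : Type} [DecidableEq Q] [Fintype Q]

theorem tens_star (A : Q → M2) : star (tens A) = tens (fun q => star (A q)) := by
  ext x y
  rw [Matrix.star_apply]
  unfold tens
  rw [star_prod]
  rfl

theorem P1_sq : P1 * P1 = P1 := by
  ext i j
  change ∑ k, P1 i k * P1 k j = P1 i j
  rw [Fintype.sum_bool]
  unfold P1
  cases i <;> cases j <;> simp

theorem Pm_sq : Pm * Pm = Pm := by
  ext i j
  change ∑ k, Pm i k * Pm k j = Pm i j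
  rw [Fintype.sum_bool]
  have h := sq22
  unfold Pm
  cases i <;> cases j <;>
    simp only [if_true, Bool.false_eq_true, if_false, one_mul, neg_mul, mul_neg, neg_neg, h] <;>
    norm_num

theorem P1_star : star P1 = P1 := by
  ext i j
  rw [Matrix.star_apply]
  unfold P1
  cases i <;> cases j <;> simp

theorem Pm_star : star Pm = Pm := by
  ext i j
  rw [Matrix.star_apply]
  have h := sq22
  unfold Pm
  cases i <;> cases j <;>
    simp only [if_true, Bool.false_eq_true, if_false, one_mul, neg_mul, mul_neg, neg_neg, h] <;>
    simp

theorem tof_unitary (T : Finset Q) (b : Q) (hb : b ∉ T) : star (tof T b) * tof T b = 1 := by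
  have hs : (fun q => star (PT T b q)) = PT T b := by
    funext q
    unfold PT
    split_ifs
    · exact Pm_star
    · exact P1_star
    · exact star_one _
  have hp : tens (PT T b) * tens (PT T b) = tens (PT T b) := by
    rw [tens_mul]
    congr 1
    funext q
    unfold PT
    split_ifs
    · exact Pm_sq
    · exact P1_sq
    · exact one_mul _
  have hstar : star (tof T b) = tof T b := by
    rw [tof_eq T b hb, star_sub, star_one, star_smul, tens_star, hs]
    simp
  rw [hstar, tof_eq T b hb, sub_mul, mul_sub, mul_sub, one_mul, mul_one, one_mul,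
    Matrix.smul_mul, Matrix.mul_smul, hp, smul_smul]
  module

theorem oneQ_unitary (q : Q) {U : M2} (hU : U ∈ Matrix.unitaryGroup Bool ℂ) :
    star (oneQ q U) * oneQ q U = 1 := by
  rw [oneQ_eq, tens_star, tens_mul, ← tens_one]
  congr 1
  funext r
  by_cases hr : r = q
  · simp only [if_pos hr]
    exact Matrix.mem_unitaryGroup_iff'.mp hU
  · simp only [if_neg hr]
    simp

theorem run_unitary (l : List (Gate Q)) : star (run l) * run l = 1 := by
  induction l with
  | nil =>
    have e : run ([] : List (Gate Q)) = 1 := rfl
    rw [e]; simp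
  | cons g l ih =>
    have e : run (g :: l) = run l * g.op := rfl
    have hg : star g.op * g.op = 1 := by
      cases g with
      | one q U hU => exact oneQ_unitary q hU
      | toffoli T b hT hb => exact tof_unitary T b hb
    rw [e, star_mul]
    calc star g.op * star (run l) * (run l * g.op)
        = star g.op * (star (run l) * run l) * g.op := by
          simp only [Matrix.mul_assoc]
      _ = 1 := by rw [ih, mul_one, hg]

end

variable {n a : ℕ}

theorem pr_add (C : List (Gate (Fin n ⊕ Fin a))) (out : Fin n ⊕ Fin a) (x : Fin n → Bool)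
    (c : Bool) : pr C out x c + pr C out x (!c) = 1 := by
  unfold pr
  rw [← Finset.sum_add_distrib]
  have h1 : ∀ z : Fin n ⊕ Fin a → Bool,
      (if z out = c then ‖run C z (ini x)‖ ^ 2 else 0) +
      (if z out = !c then ‖run C z (ini x)‖ ^ 2 else 0) = ‖run C z (ini x)‖ ^ 2 := by
    intro z
    cases hz : z out <;> cases c <;> simp
  simp only [h1]
  have h2 := congrFun (congrFun (run_unitary C) (ini x)) (ini x)
  have h3 : (star (run C) * run C) (ini x) (ini x) =
      ∑ z, star (run C z (ini x)) * run C z (ini x) := rfl
  rw [h3, Matrix.one_apply_eq] at h2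
  simp only [← nsq] at h2
  exact_mod_cast h2

theorem worst_case (C : List (Gate (Fin n ⊕ Fin a))) (out : Fin n ⊕ Fin a) (ε : ℝ)
    (h : ∀ x, 1 / 2 + ε ≤ pr C out x (par x)) : ε * 2 ^ n ≤ 9 ^ nTof C := by
  have h1 := (le_abs_self _).trans (main_bound C out)
  have h2 : 2 * ε ≤ corr C out := by
    unfold corr
    rw [le_div_iff₀ (by positivity)]
    have h3 : ∑ x : Fin n → Bool, (2 * ε) ≤
        ∑ x : Fin n → Bool, (pr C out x (par x) - pr C out x (!(par x))) := by
      apply sum_le_sum
      intro x _
      have := pr_add C out x (par x)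
      have := h x
      linarith
    rw [Finset.sum_const, Finset.card_univ, Fintype.card_fun, Fintype.card_bool, Fintype.card_fin,
      nsmul_eq_mul] at h3
    push_cast at h3
    linarith
  have h4 := h2.trans h1
  rw [le_div_iff₀ (by positivity)] at h4
  linarith

end QACParity
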